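import Vale.Agent.P181.TRT.Defs

set_option autoImplicit false

/-!
# P181, TRT: long columns
-/

open MvPolynomial

namespace Vale.Agent.P181.TRT.H755

open Vale.Agent.P181.SZ

lemma Sep.mono {m : ℕ} {σ : Type} [Fintype σ] {k : σ → ℕ} {dl : Fin m → ℕ} {c : σ → ℕ}
    {E E' : Set (Equiv.Perm σ)} (h : Sep m k dl c E)
    (hE : ∀ e : Equiv.Perm σ, (∀ j, k (e j) = k j) → e ∈ E' → e ∈ E) : Sep m k dl c E' := by
  obtain ⟨I, hI, u, v, hu, h0, h1⟩ := h
  exact ⟨I, hI, u, v, hu, fun e he he' => h0 e he (hE e he he'), h1⟩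

section
variable {κ y M : ℕ} {σ : Type} {k : σ → ℕ} {mn : Fin κ × Fin y × Fin M → σ}
  {ref : Fin (2 * y + M) → σ}

open scoped Classical in
lemma pick (hM : 0 < M) (hmn : Function.Injective mn) (href : Function.Injective ref)
    (hrm : ∀ x z, ref x ≠ mn z) (hrk : ∀ x j, k j = k (ref x) → j = ref x)
    (hmk : ∀ x j, k j = k (mn x) → ∃ p, j = mn (x.1, x.2.1, p)) (al : Fin κ) (n : ℕ)
    (hn : n ≤ (κ - 1) * (y * M)) :
    ∃ P : Finset σ, P.card = n ∧ (∀ p ∈ P, ∀ j, k j = k p → j ∈ P) ∧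
      ∀ p ∈ P, (∃ x : Fin κ × Fin y × Fin M, x.1 ≠ al ∧ p = mn x) ∨
        ∃ i : Fin (2 * y + M), 2 * y ≤ (i : ℕ) ∧ p = ref i := by
  have hq : n / M ≤ (((Finset.univ : Finset (Fin κ)).erase al) ×ˢ
      (Finset.univ : Finset (Fin y))).card := by
    rw [Finset.card_product, Finset.card_erase_of_mem (Finset.mem_univ _), Finset.card_univ,
      Finset.card_univ, Fintype.card_fin, Fintype.card_fin]
    apply Nat.div_le_of_le_mul
    calc n ≤ (κ - 1) * (y * M) := hn
      _ = M * ((κ - 1) * y) := by ring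
  obtain ⟨Q, hQ, hQc⟩ := Finset.exists_subset_card_eq hq
  have hmod : n % M < M := Nat.mod_lt _ hM
  let g1 : (Fin κ × Fin y) × Fin M → σ := fun z => mn (z.1.1, z.1.2, z.2)
  have hg1 : Function.Injective g1 := by
    rintro ⟨⟨a1, a2⟩, a3⟩ ⟨⟨b1, b2⟩, b3⟩ h
    have h1 := hmn h
    simp only [Prod.mk.injEq] at h1
    obtain ⟨h1, h2, h3⟩ := h1
    subst h1 h2 h3
    rfl
  let g2 : Fin (n % M) → σ := fun i => ref ⟨2 * y + i, by omega⟩
  have hg2 : Function.Injective g2 := by
    intro a b h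
    have h1 := href h
    simp only [Fin.mk.injEq] at h1
    exact Fin.ext (by omega)
  refine ⟨(Q ×ˢ Finset.univ).image g1 ∪ Finset.univ.image g2, ?_, ?_, ?_⟩
  · rw [Finset.card_union_of_disjoint, Finset.card_image_of_injective _ hg1,
      Finset.card_image_of_injective _ hg2, Finset.card_product, Finset.card_univ,
      Finset.card_univ, Fintype.card_fin, Fintype.card_fin, hQc]
    · exact Nat.div_add_mod' n M
    · rw [Finset.disjoint_left]
      intro a ha hb
      obtain ⟨z, _, hz⟩ := Finset.mem_image.1 ha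
      obtain ⟨i, _, hi⟩ := Finset.mem_image.1 hb
      exact hrm _ _ (hi.trans hz.symm)
  · intro p hp j hj
    rw [Finset.mem_union] at hp ⊢
    rcases hp with hp | hp
    · left
      obtain ⟨z, hz, rfl⟩ := Finset.mem_image.1 hp
      obtain ⟨p', hp'⟩ := hmk _ _ hj
      rw [Finset.mem_product] at hz
      exact Finset.mem_image.2 ⟨(z.1, p'), Finset.mem_product.2 ⟨hz.1, Finset.mem_univ _⟩,
        hp'.symm⟩
    · right
      obtain ⟨i, _, rfl⟩ := Finset.mem_image.1 hp
      rw [hrk _ _ hj]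
      exact Finset.mem_image.2 ⟨i, Finset.mem_univ _, rfl⟩
  · intro p hp
    rw [Finset.mem_union] at hp
    rcases hp with hp | hp
    · left
      obtain ⟨z, hz, rfl⟩ := Finset.mem_image.1 hp
      rw [Finset.mem_product] at hz
      have h1 := hQ hz.1
      rw [Finset.mem_product] at h1
      exact ⟨(z.1.1, z.1.2, z.2), (Finset.mem_erase.1 h1.1).1, rfl⟩
    · right
      obtain ⟨i, _, rfl⟩ := Finset.mem_image.1 hp
      exact ⟨⟨2 * y + i, by omega⟩, by simp, rfl⟩

open scoped Classical in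
lemma one_block [Fintype σ] (hBl : BlockT) {m : ℕ} (hM : 0 < M) (hmn : Function.Injective mn)
    (href : Function.Injective ref) (hrm : ∀ x z, ref x ≠ mn z)
    (hrk : ∀ x j, k j = k (ref x) → j = ref x)
    (hmk : ∀ x j, k j = k (mn x) → ∃ p, j = mn (x.1, x.2.1, p))
    (hm : m ≤ (κ - 1) * (y * M)) (f : Fin κ × Fin M × Fin M) {r r' : ℕ}
    (hr : 2 * y ≤ r ∧ r ≤ m) (hr' : 2 * y ≤ r' ∧ r' ≤ m) :
    ∃ c : σ → ℕ, (∀ j, c j ≤ 4) ∧ Sep m k (col m r + col m r') c
      {e | f.2.1 ≠ f.2.2 ∧ ∃ be be' : Fin y, e (mn (f.1, be, f.2.1)) = mn (f.1, be', f.2.2)} := by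
  have h4 : ∀ (J B P P' : Finset σ) (j : σ), (if j ∈ J then 1 else 0) + (if j ∈ B then 1 else 0) +
      (if j ∈ P then 1 else 0) + (if j ∈ P' then 1 else 0) ≤ 4 := by
    intro J B P P' j
    split_ifs <;> norm_num
  by_cases hp : f.2.1 = f.2.2
  · obtain ⟨P, hP1, hP2, _⟩ := pick hM hmn href hrm hrk hmk f.1 r (hr.2.trans hm)
    obtain ⟨P', hP1', hP2', _⟩ := pick hM hmn href hrm hrk hmk f.1 r' (hr'.2.trans hm)
    have h := hBl m 0 r r' σ k ∅ ∅ ∅ P P' rfl rfl rfl (by omega) (by omega) hr.2 hr'.2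
      (Finset.disjoint_empty_left _) (Finset.disjoint_empty_left _)
      (Finset.disjoint_empty_left _) (Finset.disjoint_empty_left _)
      (Finset.disjoint_empty_left _) (fun b hb => absurd hb (Finset.notMem_empty b)) hP2 hP2'
    exact ⟨_, fun j => h4 ∅ ∅ P P' j, Sep.mono h fun e _ he => absurd hp he.1⟩
  · obtain ⟨P, hP1, hP2, hP3⟩ := pick hM hmn href hrm hrk hmk f.1 (r - 2 * y) (by omega)
    obtain ⟨P', hP1', hP2', hP3'⟩ := pick hM hmn href hrm hrk hmk f.1 (r' - y) (by omega)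
    let gJ : Fin M → Fin y → σ := fun p be => mn (f.1, be, p)
    have hgJ : ∀ p, Function.Injective (gJ p) := by
      intro p a b h
      have h1 := hmn h
      simp only [Prod.mk.injEq, true_and, and_true] at h1
      exact h1
    let gB : Fin (2 * y) → σ := fun i => ref ⟨i, by omega⟩
    have hgB : Function.Injective gB := by
      intro a b h
      have h1 := href h
      simp only [Fin.mk.injEq] at h1
      exact Fin.ext h1
    have hJP : ∀ (p : Fin M) (R : Finset σ),
        (∀ q ∈ R, (∃ x : Fin κ × Fin y × Fin M, x.1 ≠ f.1 ∧ q = mn x) ∨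
          ∃ i : Fin (2 * y + M), 2 * y ≤ (i : ℕ) ∧ q = ref i) →
        Disjoint (Finset.univ.image (gJ p)) R := by
      intro p R hR
      rw [Finset.disjoint_left]
      intro a ha hb
      obtain ⟨be, _, rfl⟩ := Finset.mem_image.1 ha
      rcases hR _ hb with ⟨x, hx, hx'⟩ | ⟨i, _, hi⟩
      · have h1 := hmn hx'
        apply hx
        rw [← h1]
      · exact hrm _ _ hi.symm
    have hBP : ∀ R : Finset σ,
        (∀ q ∈ R, (∃ x : Fin κ × Fin y × Fin M, x.1 ≠ f.1 ∧ q = mn x) ∨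
          ∃ i : Fin (2 * y + M), 2 * y ≤ (i : ℕ) ∧ q = ref i) →
        Disjoint (Finset.univ.image gB) R := by
      intro R hR
      rw [Finset.disjoint_left]
      intro a ha hb
      obtain ⟨i, _, rfl⟩ := Finset.mem_image.1 ha
      rcases hR _ hb with ⟨x, _, hx'⟩ | ⟨i', hi', hi''⟩
      · exact hrm _ _ hx'
      · have h1 := href hi''
        have h2 : (i : ℕ) = (i' : ℕ) := congrArg Fin.val h1
        have h3 := i.2
        omega
    have h := hBl m y r r' σ k (Finset.univ.image (gJ f.2.1)) (Finset.univ.image (gJ f.2.2))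
      (Finset.univ.image gB) P P'
      (by rw [Finset.card_image_of_injective _ (hgJ _), Finset.card_univ, Fintype.card_fin])
      (by rw [Finset.card_image_of_injective _ (hgJ _), Finset.card_univ, Fintype.card_fin])
      (by rw [Finset.card_image_of_injective _ hgB, Finset.card_univ, Fintype.card_fin])
      (by omega) (by omega) hr.2 hr'.2
      (by
        rw [Finset.disjoint_left]
        intro a ha hb
        obtain ⟨be, _, rfl⟩ := Finset.mem_image.1 ha
        obtain ⟨be', _, h1⟩ := Finset.mem_image.1 hb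
        have h2 := hmn h1
        simp only [Prod.mk.injEq, true_and] at h2
        exact hp h2.2.symm)
      (hJP _ P hP3) (hJP _ P hP3) (hBP P hP3) (hBP P' hP3')
      (by
        intro b hb j hj
        obtain ⟨i, _, rfl⟩ := Finset.mem_image.1 hb
        exact hrk _ _ hj)
      hP2 hP2'
    refine ⟨_, fun j => h4 _ _ P P' j, Sep.mono h fun e _ he => ?_⟩
    obtain ⟨_, be, be', hbe⟩ := he
    refine ⟨mn (f.1, be, f.2.1), Finset.mem_image.2 ⟨be, Finset.mem_univ _, rfl⟩, ?_⟩
    rw [hbe]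
    exact Finset.mem_image.2 ⟨be', Finset.mem_univ _, rfl⟩

end

/-- **(TR5)** long columns. -/
theorem longT_of (hBl : BlockT) (hPr : SepProd) : LongT := by
  classical
  intro m κ y M σ _ k mn ref len len' hM hmn href hrm hrk hmk hmul hlen hlen' hm
  choose c hc hS using fun f : Fin κ × Fin M × Fin M =>
    one_block hBl hM hmn href hrm hrk hmk hm f (hlen f) (hlen' f)
  refine ⟨∑ f, c f, fun j => ?_, Sep.mono (hPr m σ k _ _ c _ hS) fun e hk he => ?_⟩
  · rw [Finset.sum_apply]
    calc ∑ f, c f j ≤ ∑ _f : Fin κ × Fin M × Fin M, 4 := Finset.sum_le_sum fun f _ => hc f j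
      _ = 4 * (κ * (M * M)) := by
        rw [Finset.sum_const, Finset.card_univ, Fintype.card_prod, Fintype.card_prod,
          Fintype.card_fin, Fintype.card_fin, smul_eq_mul, mul_comm]
  · have h1 : ∃ j, e j ≠ j := by
      by_contra h
      push Not at h
      exact he (Equiv.ext h)
    obtain ⟨j, hj⟩ := h1
    obtain ⟨x, hx⟩ := hmul j (e j) (Ne.symm hj) (hk j).symm
    obtain ⟨p, hp⟩ := hmk x (e j) (by rw [hx]; exact hk j)
    refine Set.mem_iUnion.2 ⟨(x.1, x.2.2, p), ?_, x.2.1, x.2.1, ?_⟩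
    · intro h2
      apply hj
      change x.2.2 = p at h2
      rw [hp, ← h2, ← hx]
    · rw [← hp, ← hx]

end Vale.Agent.P181.TRT.H755
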