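import Mathlib

set_option autoImplicit false

/-!
# The linear algebra of the trace trick
-/

namespace Vale.Agent.P181.TRT.H755

/-- If a combination of the functions `e ↦ ac e (u i)` is supported at `1`, then `|G|` of these
functions separate all functions on `G`. -/
theorem select {R : Type} [CommRing R] [IsDomain R] {G : Type} [Group G] [Fintype G]
    (ac : G → R →+* R) (hac : ∀ g h x, ac g (ac h x) = ac (g * h) x) (h1 : ∀ x, ac 1 x = x)
    {I : Type} [Fintype I] (u a : I → R) (h0 : ∀ e, e ≠ 1 → ∑ i, a i * ac e (u i) = 0)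
    (hZ : ∑ i, a i * u i ≠ 0) :
    ∃ (κ : Type) (_ : Fintype κ) (b : κ → I), Fintype.card κ = Fintype.card G ∧
      ∀ x : G → R, (∀ i, ∑ e, x e * ac e (u (b i)) = 0) → x = 0 := by
  classical
  let K := FractionRing R
  let ι : R →+* K := algebraMap R K
  have hι : Function.Injective ι := IsFractionRing.injective R K
  let v : I → (G → K) := fun i e => ι (ac e (u i))
  have hv : ∀ i e, v i e = ι (ac e (u i)) := fun _ _ => rfl
  let Z : R := ∑ i, a i * u i
  have hinj : ∀ g x, ac g x = 0 → x = 0 := by
    intro g x hx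
    have h2 := hac g⁻¹ g x
    rw [hx, map_zero, inv_mul_cancel, h1] at h2
    exact h2.symm
  have hrel : ∀ g h : G, ∑ i, ι (ac g (a i)) * v i h = if h = g then ι (ac g Z) else 0 := by
    intro g h
    have h2 : ∀ i, ι (ac g (a i)) * v i h = ι (ac g (a i * ac (g⁻¹ * h) (u i))) := by
      intro i
      rw [hv, map_mul (ac g), hac, mul_inv_cancel_left, map_mul ι]
    rw [Finset.sum_congr rfl fun i _ => h2 i, ← map_sum, ← map_sum]
    by_cases hh : h = g
    · subst hh
      rw [if_pos rfl, inv_mul_cancel]
      have h3 : ∑ i, a i * ac 1 (u i) = Z := Finset.sum_congr rfl fun i _ => by rw [h1]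
      rw [h3]
    · rw [if_neg hh, h0 (g⁻¹ * h), map_zero, map_zero]
      intro h4
      exact hh (inv_mul_eq_one.1 h4).symm
  have hspan : Submodule.span K (Set.range v) = ⊤ := by
    rw [eq_top_iff]
    intro x _
    have hx : x = ∑ g : G, (x g / ι (ac g Z)) • ∑ i, ι (ac g (a i)) • v i := by
      funext h
      rw [Finset.sum_apply, Finset.sum_eq_single h]
      · rw [Pi.smul_apply, Finset.sum_apply]
        simp only [Pi.smul_apply, smul_eq_mul]
        rw [hrel, if_pos rfl, div_mul_cancel₀]
        intro h5
        exact hZ (hinj h Z (hι (h5.trans (map_zero ι).symm)))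
      · intro g _ hg
        rw [Pi.smul_apply, Finset.sum_apply]
        simp only [Pi.smul_apply, smul_eq_mul]
        rw [hrel, if_neg (Ne.symm hg), mul_zero]
      · intro h6
        exact absurd (Finset.mem_univ _) h6
    rw [hx]
    exact Submodule.sum_mem _ fun g _ => Submodule.smul_mem _ _ (Submodule.sum_mem _ fun i _ =>
      Submodule.smul_mem _ _ (Submodule.subset_span (Set.mem_range_self i)))
  obtain ⟨κ, b, hb, hsp, hli⟩ := exists_linearIndependent' K v
  rw [hspan] at hsp
  have hfin : Finite κ := Finite.of_injective b hb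
  have hfin' : Fintype κ := Fintype.ofFinite κ
  refine ⟨κ, hfin', b, ?_, ?_⟩
  · have h7 := Module.finrank_eq_card_basis (Module.Basis.mk hli hsp.ge)
    rw [Module.finrank_fintype_fun_eq_card] at h7
    exact h7.symm
  · intro x hx
    let φ : (G → K) →ₗ[K] K := ∑ e : G, ι (x e) • (LinearMap.proj e : (G → K) →ₗ[K] K)
    have hφ : ∀ y, φ y = ∑ e : G, ι (x e) * y e := by
      intro y
      simp only [φ, LinearMap.sum_apply, LinearMap.smul_apply, LinearMap.proj_apply, smul_eq_mul]
    have h8 : φ = 0 := by
      apply LinearMap.ext_on_range hsp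
      intro i
      rw [hφ, LinearMap.zero_apply]
      have h9 : ∀ e, ι (x e) * (v ∘ b) i e = ι (x e * ac e (u (b i))) := by
        intro e
        rw [Function.comp_apply, hv, map_mul]
      rw [Finset.sum_congr rfl fun e _ => h9 e, ← map_sum, hx i, map_zero]
    funext e
    have h10 : φ (Pi.single e 1) = 0 := by rw [h8, LinearMap.zero_apply]
    rw [hφ, Finset.sum_eq_single e] at h10
    · rw [Pi.single_eq_same, mul_one] at h10
      exact hι (h10.trans (map_zero ι).symm)
    · intro g _ hg
      rw [Pi.single_eq_of_ne hg, mul_zero]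
    · intro h12
      exact absurd (Finset.mem_univ _) h12

end Vale.Agent.P181.TRT.H755
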