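import Vale.Agent.P181.TL.Defs
import Vale.Agent.P181.SZR4.Few
import Vale.Agent.P181.SZR5.Basic
import Vale.Agent.P181.TRT.H755.Select

set_option autoImplicit false

/-!
# P181: the trace trick

If highest weight polynomials `u i` of column degrees `c` separate the identity from the other
column permutations preserving `k = k' + c`, then `F ↦ Tr (F * u i)` embeds the polynomials with
column degrees `k'` in `|G|` copies of the symmetric ones with column degrees `k`.
-/

open MvPolynomial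

namespace Vale.Agent.P181.TRT.H755

open Vale.Agent.P181.T4 (HW)
open Vale.Agent.P181.SZ
open Vale.Agent.P181.TL (KK)
open Vale.Agent.P181.SZR5 (HW_mul)
open Vale.Agent.P181.SZR4 (vm vm_injective ren_mem_HW coeff_ren)

variable {m : ℕ} {σ : Type}

/-- The action of a permutation of the columns. -/
noncomputable def act (m : ℕ) (e : Equiv.Perm σ) :
    MvPolynomial (Fin m × σ) ℂ →ₐ[ℂ] MvPolynomial (Fin m × σ) ℂ :=
  rename (fun p : Fin m × σ => (p.1, e p.2))

lemma act_act (e e' : Equiv.Perm σ) (f : MvPolynomial (Fin m × σ) ℂ) :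
    act m e (act m e' f) = act m (e * e') f := by
  simp only [act, rename_rename]
  rfl

lemma act_one (f : MvPolynomial (Fin m × σ) ℂ) : act m (1 : Equiv.Perm σ) f = f := by
  have h : (fun p : Fin m × σ => (p.1, (1 : Equiv.Perm σ) p.2)) = id := by
    funext p; rfl
  rw [act, h, rename_id_apply]

lemma act_ne_zero (e : Equiv.Perm σ) {f : MvPolynomial (Fin m × σ) ℂ} (hf : f ≠ 0) :
    act m e f ≠ 0 := by
  intro h
  apply hf
  have h1 := act_act e⁻¹ e f
  rw [h, map_zero, inv_mul_cancel, act_one] at h1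
  exact h1.symm

/-- The column permutations preserving `k`. -/
def St (k : σ → ℕ) : Subgroup (Equiv.Perm σ) where
  carrier := {e | ∀ j, k (e j) = k j}
  one_mem' := fun _ => rfl
  mul_mem' := by
    intro e e' h h' j
    rw [Equiv.Perm.mul_apply, h, h']
  inv_mem' := by
    intro e h j
    have h1 := h (e⁻¹ j)
    have h2 : e (e⁻¹ j) = j := e.apply_symm_apply j
    rw [h2] at h1
    exact h1.symm

lemma mem_St {k : σ → ℕ} {e : Equiv.Perm σ} : e ∈ St k ↔ ∀ j, k (e j) = k j := Iff.rfl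

section
variable [Fintype σ]

lemma act_col {k : σ → ℕ} {e : Equiv.Perm σ} (he : e ∈ St k) {f : MvPolynomial (Fin m × σ) ℂ}
    (hf : ∀ v, coeff v f ≠ 0 → ∀ j, ∑ i, v (i, j) = k j) :
    ∀ v, coeff v (act m e f) ≠ 0 → ∀ j, ∑ i, v (i, j) = k j := by
  intro v hv j
  obtain ⟨u, hu, h1, _⟩ := coeff_ren (g := e) e.injective hv
  have h2 := hf u hu (e⁻¹ j)
  have h3 := he (e⁻¹ j)
  have h4 : e (e⁻¹ j) = j := e.apply_symm_apply j
  rw [h4] at h3
  rw [h3, ← h2]
  refine Finset.sum_congr rfl fun i _ => ?_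
  rw [← h1 i (e⁻¹ j), h4]

lemma mul_col {k k' c : σ → ℕ} (hk : ∀ j, k j = k' j + c j)
    {f g : MvPolynomial (Fin m × σ) ℂ}
    (hf : ∀ v, coeff v f ≠ 0 → ∀ j, ∑ i, v (i, j) = k' j)
    (hg : ∀ v, coeff v g ≠ 0 → ∀ j, ∑ i, v (i, j) = c j) :
    ∀ v, coeff v (f * g) ≠ 0 → ∀ j, ∑ i, v (i, j) = k j := by
  classical
  intro v hv j
  rw [coeff_mul] at hv
  obtain ⟨p, hp, hp'⟩ := Finset.exists_ne_zero_of_sum_ne_zero hv
  replace hp := Finset.HasAntidiagonal.mem_antidiagonal.1 hp
  rw [hk, ← hf p.1 (left_ne_zero_of_mul hp') j, ← hg p.2 (right_ne_zero_of_mul hp') j,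
    ← Finset.sum_add_distrib, ← hp]
  rfl

/-- The trace. -/
noncomputable def Tr (m : ℕ) (G : Subgroup (Equiv.Perm σ)) [Fintype G] :
    MvPolynomial (Fin m × σ) ℂ →ₗ[ℂ] MvPolynomial (Fin m × σ) ℂ :=
  ∑ e : G, (act m (e : Equiv.Perm σ)).toLinearMap

lemma Tr_apply (G : Subgroup (Equiv.Perm σ)) [Fintype G] (f : MvPolynomial (Fin m × σ) ℂ) :
    Tr m G f = ∑ e : G, act m (e : Equiv.Perm σ) f := by
  rw [Tr, LinearMap.sum_apply]
  rfl

lemma act_Tr (G : Subgroup (Equiv.Perm σ)) [Fintype G] (g : G)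
    (f : MvPolynomial (Fin m × σ) ℂ) : act m (g : Equiv.Perm σ) (Tr m G f) = Tr m G f := by
  rw [Tr_apply, map_sum]
  refine Fintype.sum_equiv (Equiv.mulLeft g) _ _ fun e => ?_
  rw [act_act]
  rfl

lemma Tr_mem {k k' c : σ → ℕ} (hk : ∀ j, k j = k' j + c j) {mu delta : Fin m → ℕ}
    [Fintype (St k)] {F u : MvPolynomial (Fin m × σ) ℂ} (hF : F ∈ KK m σ k' mu)
    (hu : u ∈ KK m σ c delta) : Tr m (St k) (F * u) ∈ PK m σ k (mu + delta) := by
  have h0 : ∀ e : St k, act m (e : Equiv.Perm σ) (F * u) ∈ HW m σ (mu + delta) := fun e =>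
    ren_mem_HW (g := (e : Equiv.Perm σ)) (e : Equiv.Perm σ).injective (HW_mul hF.1 hu.1)
  refine ⟨?_, ?_, ?_⟩
  · rw [Tr_apply]
    exact Submodule.sum_mem _ fun e _ => h0 e
  · intro v hv j
    rw [Tr_apply, coeff_sum] at hv
    obtain ⟨e, _, he⟩ := Finset.exists_ne_zero_of_sum_ne_zero hv
    exact act_col e.2 (mul_col hk hF.2 hu.2) v he j
  · intro e he
    exact act_Tr (St k) ⟨e, he⟩ (F * u)

/-- **The trace trick.** -/
theorem trace {k k' c : σ → ℕ} (hk : ∀ j, k j = k' j + c j) (mu delta : Fin m → ℕ) {I : Type} [Fintype I]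
    (u a : I → MvPolynomial (Fin m × σ) ℂ) (hu : ∀ i, u i ∈ KK m σ c delta)
    (h0 : ∀ e ∈ St k, e ≠ 1 → ∑ i, a i * act m e (u i) = 0) (h1 : ∑ i, a i * u i ≠ 0) :
    Module.finrank ℂ (KK m σ k' mu) ≤
      Nat.card (St k) * Module.finrank ℂ (PK m σ k (mu + delta)) := by
  classical
  have hfin : Fintype (St k) := Fintype.ofFinite _
  obtain ⟨κ, hκ, b, hcard, hx⟩ := select
    (fun e : St k => ((act m (e : Equiv.Perm σ)).toRingHom : MvPolynomial (Fin m × σ) ℂ →+* _))
    (fun g h x => act_act _ _ x) (fun x => act_one x) u a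
    (fun e he => h0 _ e.2 fun h => he (Subtype.ext h)) h1
  let L : KK m σ k' mu →ₗ[ℂ] (κ → PK m σ k (mu + delta)) :=
    { toFun := fun F i => ⟨Tr m (St k) (F.1 * u (b i)), Tr_mem hk F.2 (hu (b i))⟩
      map_add' := fun F F' => by
        funext i
        apply Subtype.ext
        change Tr m (St k) ((F.1 + F'.1) * u (b i)) =
          Tr m (St k) (F.1 * u (b i)) + Tr m (St k) (F'.1 * u (b i))
        rw [add_mul, map_add]
      map_smul' := fun r F => by
        funext i
        apply Subtype.ext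
        change Tr m (St k) ((r • F.1) * u (b i)) = r • Tr m (St k) (F.1 * u (b i))
        rw [smul_mul_assoc, map_smul] }
  have hL : Function.Injective L := by
    rw [← LinearMap.ker_eq_bot, LinearMap.ker_eq_bot']
    intro F hF
    apply Subtype.ext
    have h2 := hx (fun e : St k => act m (e : Equiv.Perm σ) F.1) fun i => by
      have h9 : Tr m (St k) (F.1 * u (b i)) = 0 := congrArg Subtype.val (congrFun hF i)
      rw [Tr_apply] at h9
      rw [← h9]
      exact Finset.sum_congr rfl fun e _ => (map_mul _ _ _).symm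
    have h3 := congrFun h2 1
    change act m (1 : Equiv.Perm σ) F.1 = 0 at h3
    rwa [act_one] at h3
  have h13 := LinearMap.finrank_le_finrank_of_injective hL
  rw [Module.finrank_pi_fintype, Finset.sum_const, Finset.card_univ, smul_eq_mul, hcard,
    ← Nat.card_eq_fintype_card] at h13
  exact h13

end

end Vale.Agent.P181.TRT.H755
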