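import Vale.Agent.P181.TRT.Defs
import Vale.Agent.P181.TRT.H755.Trace

set_option autoImplicit false

/-!
# P181, TRT: the trace trick, the literal
-/

open MvPolynomial

namespace Vale.Agent.P181.TRT.H755


/-- **(TR1)** the trace trick. -/
theorem traceT : TraceT := by
  intro m σ _ k k' c mu dl hk hS
  obtain ⟨I, hI, u, v, hu, h0, h1⟩ := hS
  exact trace hk mu dl u v hu (fun e he he1 => h0 e he he1) h1

end Vale.Agent.P181.TRT.H755
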